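import Crest.Agent.R241.Sum
import Crest.Agent.R241.HypA

/-!
# Block F (1): the compact space of (position, gradient field) pairs, lifts of chains, Prokhorov.
-/

open MeasureTheory Set Filter Topology BoundedContinuousFunction
open Crest.GeometryTopology.MetricCurrent
open Crest.GeometryTopology.Submanifold (Euc unitBallVol unitSphereArea)
open scoped ENNReal NNReal InnerProductSpace

noncomputable section

namespace Crest.Agent.R241.Lim

universe u

/-- sequential Prokhorov theorem for finite measures on a compact metric space -/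
theorem exists_subseq_weak {Ω : Type*} [MetricSpace Ω] [CompactSpace Ω] [MeasurableSpace Ω] [BorelSpace Ω]
    [Nonempty Ω] (μ : ℕ → Measure Ω) [∀ j, IsFiniteMeasure (μ j)] {A : ℝ}
    (hA : Tendsto (fun j => (μ j).real univ) atTop (𝓝 A)) :
    ∃ (φ : ℕ → ℕ) (ν : Measure Ω), StrictMono φ ∧ IsFiniteMeasure ν ∧ ∀ G : Ω → ℝ, Continuous G →
      Tendsto (fun j => ∫ o, G o ∂μ (φ j)) atTop (𝓝 (∫ o, G o ∂ν)) := by
  let M : ℕ → FiniteMeasure Ω := fun j => ⟨μ j, inferInstance⟩
  obtain ⟨ν₀, φ, hφ, hlim⟩ := CompactSpace.tendsto_subseq fun j => (M j).normalize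
  have hA0 : 0 ≤ A := ge_of_tendsto' hA fun j => measureReal_nonneg
  refine ⟨φ, (A.toNNReal : ℝ≥0) • (ν₀ : Measure Ω), hφ, inferInstance, fun G hG => ?_⟩
  have h1 := (ProbabilityMeasure.tendsto_iff_forall_integral_tendsto.1 hlim)
    (BoundedContinuousFunction.mkOfCompact ⟨G, hG⟩)
  have h2 : ∀ j, ∫ o, G o ∂μ j = (μ j).real univ * ∫ o, G o ∂((M j).normalize : Measure Ω) := by
    intro j
    have e : μ j = (M j).mass • ((M j).normalize : Measure Ω) :=
      congrArg FiniteMeasure.toMeasure (M j).self_eq_mass_smul_normalize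
    conv_lhs => rw [e]
    rw [integral_smul_nnreal_measure, NNReal.smul_def, smul_eq_mul]
    rfl
  simp only [h2]
  rw [integral_smul_nnreal_measure, NNReal.smul_def, smul_eq_mul, Real.coe_toNNReal A hA0]
  exact (hA.comp hφ.tendsto_atTop).mul h1

variable {X : Type u} [MetricSpace X] [CompactSpace X] {σ : ℝ} {n : ℕ}

/-- positions together with a Lipschitz field of "gradients of `κ_x`" -/
def Om (σ : ℝ) (C : ℝ≥0) (n : ℕ) (X : Type u) [MetricSpace X] : Type u :=
  {o : X × (X →ᵇ Euc n) // LipschitzWith C o.2 ∧ ∀ x, ‖o.2 x‖ ≤ sn σ (dist x o.1)}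

instance (C : ℝ≥0) : MetricSpace (Om σ C n X) := inferInstanceAs (MetricSpace (Subtype _))
instance (C : ℝ≥0) : MeasurableSpace (Om σ C n X) := borel _
instance (C : ℝ≥0) : BorelSpace (Om σ C n X) := ⟨rfl⟩

omit [CompactSpace X] in
theorem continuous_p (C : ℝ≥0) : Continuous fun o : Om σ C n X => o.1.1 :=
  continuous_fst.comp continuous_subtype_val

omit [CompactSpace X] in
theorem continuous_ξ (C : ℝ≥0) (x : X) : Continuous fun o : Om σ C n X => o.1.2 x :=
  (continuous_eval_const x).comp (continuous_snd.comp continuous_subtype_val)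

instance (C : ℝ≥0) : CompactSpace (Om σ C n X) := by
  obtain ⟨B, hB⟩ : ∃ B : ℝ, ∀ q : X × X, sn σ (dist q.1 q.2) ≤ B := by
    have hc : Continuous fun q : X × X => sn σ (dist q.1 q.2) := (continuous_sn σ).comp continuous_dist
    obtain ⟨B, hB⟩ := (isCompact_range hc).bddAbove
    exact ⟨B, fun q => hB (mem_range_self q)⟩
  let K : Set (X →ᵇ Euc n) := {f | LipschitzWith C f ∧ ∀ x, f x ∈ Metric.closedBall 0 B}
  have hL : IsClosed {f : X →ᵇ Euc n | LipschitzWith C f} := by
    simp only [lipschitzWith_iff_dist_le_mul, ofPred_forall]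
    exact isClosed_iInter fun x => isClosed_iInter fun y =>
      isClosed_le ((continuous_eval_const x).dist (continuous_eval_const y)) continuous_const
  have hK : IsCompact K := by
    refine arzela_ascoli₂ (Metric.closedBall 0 B) (isCompact_closedBall _ _) K ?_ (fun f x hf => hf.2 x) ?_
    · refine hL.inter ?_
      show IsClosed {f : X →ᵇ Euc n | ∀ x, f x ∈ Metric.closedBall 0 B}
      simp only [ofPred_forall]
      exact isClosed_iInter fun x => Metric.isClosed_closedBall.preimage (continuous_eval_const x)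
    · exact (LipschitzWith.uniformEquicontinuous _ C fun f : K => f.2.1).equicontinuous
  refine isCompact_iff_compactSpace.1 ((isCompact_univ.prod hK).of_isClosed_subset ?_ ?_)
  · refine (hL.preimage continuous_snd).inter ?_
    show IsClosed {o : X × (X →ᵇ Euc n) | ∀ x, ‖o.2 x‖ ≤ sn σ (dist x o.1)}
    simp only [ofPred_forall]
    exact isClosed_iInter fun x => isClosed_le ((continuous_eval_const x).comp continuous_snd).norm
      ((continuous_sn σ).comp (continuous_const.dist continuous_fst))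
  · rintro o ⟨h1, h2⟩
    exact ⟨trivial, h1, fun x => mem_closedBall_zero_iff.2 ((h2 x).trans (hB (x, o.1)))⟩

omit [CompactSpace X] in
theorem nonempty_Om (hσ : 0 ≤ σ) (C : ℝ≥0) (x₀ : X) : Nonempty (Om σ C n X) :=
  ⟨⟨(x₀, 0), (LipschitzWith.const (0 : Euc n)).weaken zero_le, fun _ => by
    simpa using sn_nonneg hσ dist_nonneg⟩⟩

omit [CompactSpace X] in
theorem ae_norm_grad_kap (hσ : 0 ≤ σ) (c : Ch X n) (x : X) :
    ∀ᵐ w ∂c.par, ‖c.grad (kap σ x) w‖ ≤ sn σ (dist x (c.pt w)) := by
  filter_upwards [c.grad_comp₁ (Lip.dist_right x) (Φ := md σ)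
    fun y => (hasDerivAt_md hσ _).differentiableAt, c.ae_norm_grad_le (LipschitzWith.dist_right x)]
    with w h1 h2
  have e : c.grad (kap σ x) w = c.grad (fun y => md σ (dist x y)) w := rfl
  rw [e, h1, (hasDerivAt_md hσ _).deriv, norm_smul, Real.norm_of_nonneg (sn_nonneg hσ dist_nonneg)]
  exact mul_le_of_le_one_right (sn_nonneg hσ dist_nonneg) h2

theorem ae_dist_grad_kap (hσ : 0 ≤ σ) {C : ℝ≥0}
    (hC : ∀ x x' : X, LipschitzWith (C * nndist x x') fun y => kap σ x y - kap σ x' y)
    (c : Ch X n) (x x' : X) :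
    ∀ᵐ w ∂c.par, dist (c.grad (kap σ x) w) (c.grad (kap σ x') w) ≤ C * dist x x' := by
  filter_upwards [c.grad_sub (lip_kap hσ x) (lip_kap hσ x'), c.ae_norm_grad_le (hC x x')] with w h1 h2
  rw [dist_eq_norm, ← h1]
  exact h2

/-- the lift of a chain to `Om` -/
theorem exists_lift [MeasurableSpace X] [BorelSpace X] (hσ : 0 ≤ σ) {C : ℝ≥0}
    (hC : ∀ x x' : X, LipschitzWith (C * nndist x x') fun y => kap σ x y - kap σ x' y) (c : Ch X n) :
    ∃ L : ℕ × Euc n → Om σ C n X, AEMeasurable L c.par ∧ (∀ᵐ w ∂c.par, (L w).1.1 = c.pt w) ∧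
      ∀ x, ∀ᵐ w ∂c.par, (L w).1.2 x = c.grad (kap σ x) w := by
  have : Nonempty X := ⟨c.φ 0 0⟩
  have := nonempty_Om (n := n) hσ C (c.φ 0 0)
  set d : ℕ → X := TopologicalSpace.denseSeq X with hd
  have hdr : DenseRange d := TopologicalSpace.denseRange_denseSeq X
  have hex : ∀ᵐ w ∂c.par, ∃ o : Om σ C n X, o.1.1 = c.pt w ∧ ∀ l, o.1.2 (d l) = c.grad (kap σ (d l)) w := by
    filter_upwards [ae_all_iff.2 fun l => ae_norm_grad_kap hσ c (d l),
      ae_all_iff.2 fun l => ae_all_iff.2 fun l' => ae_dist_grad_kap hσ hC c (d l) (d l')] with w h1 h2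
    have h3 : LipschitzOnWith C (fun x => c.grad (kap σ x) w) (range d) := by
      refine LipschitzOnWith.of_dist_le_mul ?_
      rintro _ ⟨l, rfl⟩ _ ⟨l', rfl⟩
      exact h2 l l'
    obtain ⟨g, hg, hge⟩ := h3.extend_finite_dimension
    have h4 : LipschitzWith C g := by
      rw [← lipschitzOnWith_univ, ← hdr.closure_range]
      refine LipschitzOnWith.closure hg.continuous.continuousOn fun a ha b hb => ?_
      rw [← hge ha, ← hge hb]
      exact h3 ha hb
    refine ⟨⟨(c.pt w, mkOfCompact ⟨g, hg.continuous⟩), h4, fun x => ?_⟩, rfl,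
      fun l => (hge (mem_range_self l)).symm⟩
    refine hdr.induction_on x (p := fun x => ‖g x‖ ≤ sn σ (dist x (c.pt w))) (isClosed_le hg.continuous.norm
      ((continuous_sn σ).comp (continuous_id.dist continuous_const))) fun l => ?_
    rw [← hge (mem_range_self l)]
    exact h1 l
  let L : ℕ × Euc n → Om σ C n X := fun w => Classical.epsilon
    fun o : Om σ C n X => o.1.1 = c.pt w ∧ ∀ l, o.1.2 (d l) = c.grad (kap σ (d l)) w
  have hL : ∀ᵐ w ∂c.par, (L w).1.1 = c.pt w ∧ ∀ l, (L w).1.2 (d l) = c.grad (kap σ (d l)) w :=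
    hex.mono fun w hw => Classical.epsilon_spec hw
  refine ⟨L, ?_, hL.mono fun w hw => hw.1, fun x => ?_⟩
  · let ι : Om σ C n X → X × (ℕ → Euc n) := fun o => (o.1.1, fun l => o.1.2 (d l))
    have hιc : Continuous ι := (continuous_p C).prodMk (continuous_pi fun l => continuous_ξ C _)
    have hιi : Function.Injective ι := by
      intro o o' h
      have h1 : o.1.1 = o'.1.1 := (Prod.ext_iff.1 h).1
      have h2 : ∀ l, o.1.2 (d l) = o'.1.2 (d l) := fun l => congrFun (congrArg Prod.snd h) l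
      refine Subtype.ext (Prod.ext h1 (BoundedContinuousFunction.ext fun x => ?_))
      exact congrFun (hdr.equalizer o.1.2.continuous o'.1.2.continuous (funext h2)) x
    rw [← (hιc.isClosedEmbedding hιi).measurableEmbedding.aemeasurable_comp_iff]
    have hm : AEMeasurable (fun w => (c.pt w, fun l => c.grad (kap σ (d l)) w)) c.par :=
      c.aemeasurable_pt.prodMk (aemeasurable_pi_lambda _ fun l => (c.aesm_grad (lip_kap hσ _)).aemeasurable)
    refine hm.congr (hL.mono fun w hw => ?_)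
    exact Prod.ext hw.1.symm (funext fun l => (hw.2 l).symm)
  · filter_upwards [hL, ae_all_iff.2 fun l => ae_dist_grad_kap hσ hC c x (d l)] with w h1 h2
    refine eq_of_forall_dist_le fun ε hε => ?_
    obtain ⟨l, hl⟩ := hdr.exists_dist_lt x (show 0 < ε / (2 * C + 1) by positivity)
    have a1 := (L w).2.1.dist_le_mul x (d l)
    have a2 := h2 l
    rw [h1.2 l] at a1
    have a3 := dist_triangle_right ((L w).1.2 x) (c.grad (kap σ x) w) (c.grad (kap σ (d l)) w)
    rw [lt_div_iff₀ (by positivity)] at hl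
    have : 0 ≤ dist x (d l) := dist_nonneg
    nlinarith

/-- compactness: a subsequence of the lifts converges in law -/
theorem exists_weak_lim [MeasurableSpace X] [BorelSpace X] (hσ : 0 ≤ σ) {C : ℝ≥0}
    (hC : ∀ x x' : X, LipschitzWith (C * nndist x x') fun y => kap σ x y - kap σ x' y)
    (c : ℕ → Ch X n) {A : ℝ} (hA : Tendsto (fun j => (c j).area) atTop (𝓝 A)) :
    ∃ (φ : ℕ → ℕ) (ν : Measure (Om σ C n X)) (L : ℕ → ℕ × Euc n → Om σ C n X), StrictMono φ ∧
      IsFiniteMeasure ν ∧ (∀ j, ∀ᵐ w ∂(c j).par, (L j w).1.1 = (c j).pt w) ∧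
      (∀ j x, ∀ᵐ w ∂(c j).par, (L j w).1.2 x = (c j).grad (kap σ x) w) ∧
      ∀ G : Om σ C n X → ℝ, Continuous G →
        Tendsto (fun j => ∫ w, G (L (φ j) w) ∂(c (φ j)).par) atTop (𝓝 (∫ o, G o ∂ν)) := by
  choose L hLm hLp hLξ using fun j => exists_lift hσ hC (c j)
  have := nonempty_Om (n := n) hσ C ((c 0).φ 0 0)
  obtain ⟨φ, ν, hφ, hν, hlim⟩ := exists_subseq_weak (fun j => (c j).par.map (L j)) (A := A) (by
    refine hA.congr fun j => ?_
    rw [Ch.area, Measure.real, Measure.real, Measure.map_apply_of_aemeasurable (hLm j) MeasurableSet.univ,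
      preimage_univ])
  refine ⟨φ, ν, L, hφ, hν, hLp, hLξ, fun G hG => (hlim G hG).congr fun j => ?_⟩
  exact integral_map (hLm _) hG.aestronglyMeasurable

end Crest.Agent.R241.Lim
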