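import Crest.Agent.R241.Lim.Comp

/-!
# Block F (3b): the density lower bound.
-/

open MeasureTheory Set Filter Topology
open Crest.GeometryTopology.MetricCurrent
open Crest.GeometryTopology.Submanifold (Euc unitBallVol unitSphereArea)
open scoped ENNReal NNReal InnerProductSpace

noncomputable section

namespace Crest.Agent.R241.Lim

universe u

/-- discrete comparison for the differential inequality `M' ≥ β M^{n/(n+1)}` -/
theorem ode_lower {M : ℝ → ℝ} {n : ℕ} {δ ρ β γ : ℝ} (hδρ : δ ≤ ρ) (hM0 : 0 < M δ) (hγ : 0 ≤ γ)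
    (hβ : (n + 1) * γ < β)
    (h : ∀ s t, δ ≤ s → s ≤ t → t ≤ ρ → ∀ r ≥ (0 : ℝ), r ^ (n + 1) ≤ M s → M s + β * (t - s) * r ^ n ≤ M t) :
    (γ * (ρ - δ)) ^ (n + 1) ≤ M ρ := by
  set h₀ := min 1 (M δ) with hh
  have h0 : 0 < h₀ := lt_min one_pos hM0
  have h1 : h₀ ^ (n + 1) ≤ M δ :=
    (pow_le_of_le_one h0.le (min_le_left _ _) n.succ_ne_zero).trans (min_le_right _ _)
  have hlim : Tendsto (fun N : ℕ => (n + 1) * γ * (1 + γ * ((ρ - δ) / N) / h₀) ^ n) atTop
      (𝓝 ((n + 1) * γ * (1 + γ * 0 / h₀) ^ n)) :=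
    ((((tendsto_const_div_atTop_nhds_zero_nat (ρ - δ)).const_mul γ).div_const h₀).const_add 1).pow n
      |>.const_mul _
  rw [mul_zero, zero_div, add_zero, one_pow, mul_one] at hlim
  obtain ⟨N, hN, hN0⟩ := ((hlim.eventually (gt_mem_nhds hβ)).and (eventually_gt_atTop 0)).exists
  have hN' : (0 : ℝ) < N := Nat.cast_pos.2 hN0
  set d := (ρ - δ) / N with hd
  have hd0 : 0 ≤ d := div_nonneg (sub_nonneg.2 hδρ) hN'.le
  have hNd : N * d = ρ - δ := by rw [hd]; field_simp
  have key : ∀ k : ℕ, k ≤ N → (h₀ + γ * (k * d)) ^ (n + 1) ≤ M (δ + k * d) := by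
    intro k
    induction k with
    | zero => intro _; simpa using h1
    | succ k ih =>
      intro hk
      have ih' := ih (Nat.le_of_succ_le hk)
      have hk0 : (0 : ℝ) ≤ k * d := by positivity
      have hk1 : ((k + 1 : ℕ) : ℝ) * d ≤ N * d := mul_le_mul_of_nonneg_right (Nat.cast_le.2 hk) hd0
      set a := h₀ + γ * (k * d) with ha
      have ha0 : h₀ ≤ a := le_add_of_nonneg_right (by positivity)
      have ha1 : 0 < a := h0.trans_le ha0
      have e1 : h₀ + γ * (((k + 1 : ℕ) : ℝ) * d) = a + γ * d := by push_cast; ring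
      have e2 : δ + ((k + 1 : ℕ) : ℝ) * d - (δ + k * d) = d := by push_cast; ring
      have h2 := h (δ + k * d) (δ + ((k + 1 : ℕ) : ℝ) * d) (by linarith) (by linarith) (by linarith) a ha1.le ih'
      rw [e2] at h2
      rw [e1]
      have hγd : 0 ≤ γ * d := by positivity
      have h3 := (le_abs_self _).trans (abs_pow_sub_pow_le (a + γ * d) a (n + 1))
      rw [add_sub_cancel_left, abs_of_nonneg hγd, abs_of_pos ha1, abs_of_pos (by positivity),
        max_eq_left (by linarith), Nat.add_sub_cancel] at h3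
      have h4 : a + γ * d ≤ a * (1 + γ * d / h₀) := by
        have : γ * d ≤ a * (γ * d / h₀) := by
          rw [← mul_div_assoc a, le_div_iff₀ h0]
          nlinarith
        linarith
      have h5 : (a + γ * d) ^ n ≤ a ^ n * (1 + γ * d / h₀) ^ n := by
        rw [← mul_pow]
        exact pow_le_pow_left₀ (by positivity) h4 n
      have h6 : γ * d * ((n + 1 : ℕ) : ℝ) * (a + γ * d) ^ n ≤ β * d * a ^ n := by
        calc γ * d * ((n + 1 : ℕ) : ℝ) * (a + γ * d) ^ n
            ≤ γ * d * ((n + 1 : ℕ) : ℝ) * (a ^ n * (1 + γ * d / h₀) ^ n) :=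
              mul_le_mul_of_nonneg_left h5 (by positivity)
          _ = ((n + 1) * γ * (1 + γ * d / h₀) ^ n) * (d * a ^ n) := by push_cast; ring
          _ ≤ β * (d * a ^ n) := mul_le_mul_of_nonneg_right hN.le (by positivity)
          _ = _ := by ring
      linarith
  have h7 := key N le_rfl
  rw [hNd, add_sub_cancel] at h7
  refine le_trans (pow_le_pow_left₀ (mul_nonneg hγ (sub_nonneg.2 hδρ)) ?_ _) h7
  linarith

variable {X : Type u} [MetricSpace X] [CompactSpace X] [MeasurableSpace X] [BorelSpace X] {σ : ℝ} {m : ℕ}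

omit [CompactSpace X] in
theorem cB_mono {k : ℕ} (c : Ch X k) (x : X) {s t : ℝ} (h : s ≤ t) : (cB c x s).area ≤ (cB c x t).area := by
  rw [c.area_restr, c.area_restr]
  exact measureReal_mono fun w (hw : dist (c.pt w) x ≤ s) => (hw.trans h : dist (c.pt w) x ≤ t)

/-- the coarea inequality for the distance function -/
theorem coarea (c : Ch X (m + 1)) (hc : c.IsCyc) (x : X) {θ : ℝ} (hθ : 0 < θ) {s t K : ℝ} (hst : s ≤ t)
    (hK : 0 ≤ K) (h : ∀ t' ∈ Ioc s t, ∀ sl : Ch X m, IsBd (cB c x t') sl → sl.In {y | dist y x = t'} →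
      K ≤ sl.area) : K * (t - s) ≤ (1 + θ) * ((cB c x t).area - (cB c x s).area) := by
  obtain ⟨b, -, hb, hsl⟩ := exists_slice c (Lip.dist_left x) (t + 1) (fun π hπ _ => hc π hπ) hθ
  have hnm : ∀ A : Set ℝ, MeasurableSet A → NullMeasurableSet {w | dist (c.pt w) x ∈ A} c.par := fun A hA =>
    (c.aesm_comp_pt (Lip.dist_left x).continuous).aemeasurable.nullMeasurableSet_preimage hA
  have h1 : (cB c x t).area = (cB c x s).area + c.par.real {w | dist (c.pt w) x ∈ Ioc s t} := by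
    rw [c.area_restr, c.area_restr, ← measureReal_union₀ (hnm _ measurableSet_Ioc)]
    · congr 1
      ext w
      simp only [mem_preimage, mem_ofPred_eq, mem_union, mem_Ioc]
      constructor
      · intro hw
        rcases le_or_gt (dist (c.pt w) x) s with h' | h'
        · exact Or.inl h'
        · exact Or.inr ⟨h', hw⟩
      · rintro (hw | hw)
        · exact hw.trans hst
        · exact hw.2
    · refine Disjoint.aedisjoint (Set.disjoint_left.2 fun w h1 h2 => ?_)
      exact absurd (show dist (c.pt w) x ≤ s from h1) (not_le.2 h2.1)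
  rw [h1, add_sub_cancel_left]
  have h2 : ENNReal.ofReal K * ENNReal.ofReal (t - s) ≤ ∫⁻ t' in Ioc s t, b t' := by
    rw [← Real.volume_Ioc, ← setLIntegral_const]
    refine lintegral_mono_ae ((ae_restrict_iff' measurableSet_Ioc).2 ?_)
    filter_upwards [hsl] with t' h3 ht'
    obtain ⟨sl, a1, a2, a3⟩ := h3 (by linarith [ht'.2])
    exact (ENNReal.ofReal_le_ofReal (h t' ht' sl a1 a3)).trans a2
  have h3 : ∫⁻ w in {w | dist (c.pt w) x ∈ Ioc s t}, ‖c.grad (fun y => dist y x) w‖ₑ ∂c.par ≤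
      c.par {w | dist (c.pt w) x ∈ Ioc s t} := by
    rw [← setLIntegral_one]
    refine lintegral_mono_ae (ae_restrict_of_ae ?_)
    filter_upwards [c.ae_norm_grad_le (LipschitzWith.dist_left x)] with w hw
    rw [← ofReal_norm, ENNReal.ofReal_le_one]
    exact hw
  have h4 := h2.trans ((hb _ measurableSet_Ioc).trans (mul_le_mul_right h3 _))
  rw [← ENNReal.ofReal_mul hK, ← ofReal_measureReal, ← ENNReal.ofReal_mul (by linarith)] at h4
  exact (ENNReal.ofReal_le_ofReal_iff (mul_nonneg (by linarith) measureReal_nonneg)).1 h4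

theorem mass_lower (hσ : 0 ≤ σ) (H : Hyp σ X) (hfill : m ≠ 0 → Fill σ X m) {P : ℝ → ℝ} {Λ A : ℝ}
    {c : ℕ → Ch X (m + 1)} (h : NearMin P Λ A c) : ∃ l > 0, ∀ θ ∈ Ioo (0 : ℝ) (1 / 5), ∀ μ₀ > 0,
      ∀ᶠ j in atTop, ∀ (x : X) (δ ρ : ℝ), 0 ≤ δ → δ ≤ ρ → ρ ≤ θ * l → μ₀ ≤ (cB (c j) x δ).area →
        om (m + 1) * ((1 - 5 * θ) * (ρ - δ)) ^ (m + 1) ≤ (cB (c j) x ρ).area := by
  obtain ⟨l, hl, hsl⟩ := slice_lower hσ H hfill h
  refine ⟨l, hl, fun θ hθ μ₀ hμ => ?_⟩
  have hθ0 := hθ.1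
  have hθ1 := hθ.2
  have ho := om_pos (m + 1)
  filter_upwards [hsl θ ⟨hθ0, by linarith⟩ μ₀ hμ] with j hj x δ ρ hδ hδρ hρ hμδ
  have h3 : 0 < 1 - 3 * θ := by linarith
  have hm1 : (0 : ℝ) < m + 1 := by positivity
  have := ode_lower (M := fun t => (1 - 3 * θ) * (cB (c j) x t).area / om (m + 1)) (n := m)
    (β := (m + 1) * (1 - 4 * θ)) (γ := 1 - 5 * θ) hδρ (div_pos (mul_pos h3 (hμ.trans_le hμδ)) ho) (by linarith)
    (mul_lt_mul_of_pos_left (by linarith) hm1) (fun s t hs hst ht r hr hrs => by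
      rw [le_div_iff₀ ho, mul_comm] at hrs
      have h4 := coarea (c j) (h.cyc j) x hθ0 hst (K := (m + 1) * om (m + 1) * r ^ m) (by positivity)
        fun t' ht' sl a1 a2 => hj x t' ⟨by linarith [ht'.1], by linarith [ht'.2]⟩ sl a1 a2
          (hμδ.trans (cB_mono _ x (by linarith [ht'.1]))) r hr
          (hrs.trans (mul_le_mul_of_nonneg_left (cB_mono _ x ht'.1.le) h3.le))
      have h5 : 0 ≤ (cB (c j) x t).area - (cB (c j) x s).area := sub_nonneg.2 (cB_mono _ x hst)
      set D := (cB (c j) x t).area - (cB (c j) x s).area with hD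
      have h6 : (1 - 4 * θ) * ((m + 1) * om (m + 1) * r ^ m * (t - s)) ≤ (1 - 3 * θ) * D := by
        refine (mul_le_mul_of_nonneg_left h4 (by linarith)).trans ?_
        rw [← mul_assoc]
        exact mul_le_mul_of_nonneg_right (by nlinarith) h5
      have e : (cB (c j) x t).area = (cB (c j) x s).area + D := by rw [hD]; ring
      rw [e, mul_add, add_div, add_le_add_iff_left, le_div_iff₀ ho]
      linarith)
  rw [le_div_iff₀ ho, mul_comm] at this
  refine this.trans (mul_le_of_le_one_left (Ch.area_nonneg _) (by linarith))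

/-- continuous cut-off: `1` on `closedBall x a`, `0` off `closedBall x b` -/
def cut (x : X) (a b : ℝ) (y : X) : ℝ := max 0 (min 1 ((b - dist y x) / (b - a)))

omit [CompactSpace X] [MeasurableSpace X] [BorelSpace X] in
theorem continuous_cut (x : X) (a b : ℝ) : Continuous (cut x a b) := by
  unfold cut; fun_prop

omit [CompactSpace X] in
theorem cut_bounds (x : X) {a b : ℝ} (hab : a < b) {Ω : Type*} [MeasurableSpace Ω] (μ : Measure Ω)
    [IsFiniteMeasure μ] {q : Ω → X} (hq : AEMeasurable q μ) :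
    μ.real {o | dist (q o) x ≤ a} ≤ ∫ o, cut x a b (q o) ∂μ ∧
      ∫ o, cut x a b (q o) ∂μ ≤ μ.real {o | dist (q o) x ≤ b} := by
  have hba : 0 < b - a := sub_pos.2 hab
  have hc := continuous_cut x a b
  have hm : ∀ t : ℝ, MeasurableSet {y : X | dist y x ≤ t} := fun t => (Lip.dist_left x).measurableSet_le t
  have e : ∀ t : ℝ, μ.real {o | dist (q o) x ≤ t} = ∫ y, {y : X | dist y x ≤ t}.indicator 1 y ∂μ.map q := by
    intro t
    rw [integral_indicator_one (hm t), Measure.real, Measure.real, Measure.map_apply_of_aemeasurable hq (hm t)]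
    rfl
  have hi : ∀ t : ℝ, Integrable ({y : X | dist y x ≤ t}.indicator (1 : X → ℝ)) (μ.map q) := fun t =>
    (integrable_const (1 : ℝ)).indicator (hm t)
  have hg : Integrable (cut x a b) (μ.map q) :=
    Integrable.of_bound hc.aestronglyMeasurable 1 (Eventually.of_forall fun y => by
      rw [cut, Real.norm_of_nonneg (le_max_left _ _)]
      exact max_le zero_le_one (min_le_left _ _))
  rw [e, e, ← integral_map hq hc.aestronglyMeasurable]
  refine ⟨integral_mono (hi a) hg fun y => ?_, integral_mono hg (hi b) fun y => ?_⟩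
  · by_cases hy : y ∈ {y : X | dist y x ≤ a}
    · rw [indicator_of_mem hy]
      refine le_max_of_le_right (le_min le_rfl ?_)
      rw [Pi.one_apply, le_div_iff₀ hba]
      have : dist y x ≤ a := hy
      linarith
    · rw [indicator_of_notMem hy]
      exact le_max_left _ _
  · by_cases hy : y ∈ {y : X | dist y x ≤ b}
    · rw [indicator_of_mem hy]
      exact max_le zero_le_one (min_le_left _ _)
    · rw [indicator_of_notMem hy]
      refine max_le le_rfl (min_le_of_right_le (div_nonpos_of_nonpos_of_nonneg ?_ hba.le))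
      have : ¬ dist y x ≤ b := hy
      linarith

theorem dens_of_near (hσ : 0 ≤ σ) (H : Hyp σ X) (hfill : m ≠ 0 → Fill σ X m) {P : ℝ → ℝ} {Λ A : ℝ}
    {c : ℕ → Ch X (m + 1)} (h : NearMin P Λ A c) {Ω : Type u} [MeasurableSpace Ω] (ν : Measure Ω)
    [IsFiniteMeasure ν] {p : Ω → X} (hp : Measurable p)
    (hconv : ∀ g : X → ℝ, Continuous g →
      Tendsto (fun j => ∫ w, g ((c j).pt w) ∂(c j).par) atTop (𝓝 (∫ o, g (p o) ∂ν))) :
    ∀ ε > 0, ∃ ρ₀ > 0, ∀ᵐ o ∂ν, ∀ ρ ∈ Ioo (0 : ℝ) ρ₀,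
      (1 - ε) * om (m + 1) * ρ ^ (m + 1) ≤ ν.real {o' | dist (p o') (p o) ≤ ρ} := by
  intro ε hε
  obtain ⟨l, hl, hml⟩ := mass_lower hσ H hfill h
  have hm1 : (0 : ℝ) < m + 1 := by positivity
  set θ := min (1 / 8) (ε / (7 * (m + 1))) with hθ
  have hθ0 : 0 < θ := lt_min (by norm_num) (by positivity)
  have hθ1 : θ ≤ 1 / 8 := min_le_left _ _
  have hθ2 : θ * (7 * (m + 1)) ≤ ε := (le_div_iff₀ (by positivity)).1 (min_le_right _ _)
  refine ⟨θ * l, by positivity, ?_⟩
  filter_upwards [ae_of_ae_map hp.aemeasurable (Measure.support_mem_ae (μ := ν.map p))] with o ho ρ hρ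
  set x := p o with hx
  have hρ0 := hρ.1
  have hδ : 0 < θ * ρ := by positivity
  have hcb : ∀ j t, (cB (c j) x t).area = (c j).par.real {w | dist ((c j).pt w) x ≤ t} := fun j t =>
    (c j).area_restr _
  have hpos : 0 < ν.real {o' | dist (p o') x ≤ θ * ρ / 2} := by
    have h1 := (Measure.mem_support_iff_forall x).1 ho _ (Metric.closedBall_mem_nhds x (half_pos hδ))
    rw [Measure.map_apply hp measurableSet_closedBall] at h1
    exact ENNReal.toReal_pos h1.ne' (measure_ne_top _ _)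
  have h1 : ∀ᶠ j in atTop, ν.real {o' | dist (p o') x ≤ θ * ρ / 2} / 2 ≤ (cB (c j) x (θ * ρ)).area := by
    have a1 := (cut_bounds x (half_lt_self hδ) ν hp.aemeasurable).1
    filter_upwards [(hconv _ (continuous_cut x (θ * ρ / 2) (θ * ρ))).eventually
      (lt_mem_nhds ((half_lt_self hpos).trans_le a1))] with j hj
    rw [hcb]
    exact hj.le.trans (cut_bounds x (half_lt_self hδ) (c j).par (c j).aemeasurable_pt).2
  have hlt : (1 - θ) * ρ < ρ := by nlinarith
  have h2 : om (m + 1) * ((1 - 5 * θ) * ((1 - θ) * ρ - θ * ρ)) ^ (m + 1) ≤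
      ∫ o', cut x ((1 - θ) * ρ) ρ (p o') ∂ν := by
    refine ge_of_tendsto (hconv _ (continuous_cut x ((1 - θ) * ρ) ρ)) ?_
    filter_upwards [h1, hml θ ⟨hθ0, by linarith⟩ _ (half_pos hpos)] with j hj1 hj2
    refine (hj2 x (θ * ρ) ((1 - θ) * ρ) hδ.le (by nlinarith) (hlt.le.trans hρ.2.le) hj1).trans ?_
    rw [hcb]
    exact (cut_bounds x hlt (c j).par (c j).aemeasurable_pt).1
  refine le_trans ?_ (h2.trans (cut_bounds x hlt ν hp.aemeasurable).2)
  have h3 : (1 - 7 * θ) * ρ ≤ (1 - 5 * θ) * ((1 - θ) * ρ - θ * ρ) := by nlinarith [mul_pos (mul_pos hθ0 hθ0) hρ0]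
  have h4 : 1 - ε ≤ (1 - 7 * θ) ^ (m + 1) := by
    have := one_add_mul_le_pow (a := -(7 * θ)) (by linarith) (m + 1)
    rw [← sub_eq_add_neg] at this
    push_cast at this
    linarith
  calc (1 - ε) * om (m + 1) * ρ ^ (m + 1) ≤ (1 - 7 * θ) ^ (m + 1) * om (m + 1) * ρ ^ (m + 1) :=
        mul_le_mul_of_nonneg_right (mul_le_mul_of_nonneg_right h4 (om_pos _).le) (by positivity)
    _ = om (m + 1) * ((1 - 7 * θ) * ρ) ^ (m + 1) := by rw [mul_pow]; ring
    _ ≤ _ := mul_le_mul_of_nonneg_left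
        (pow_le_pow_left₀ (mul_nonneg (by linarith) hρ0.le) h3 _) (om_pos _).le

end Crest.Agent.R241.Lim
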