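import Crest.Agent.R241.Hom

/-!
# Block F (2): the first variation inequality for limits of near-minimisers.
-/

open MeasureTheory Set Filter Topology
open Crest.GeometryTopology.MetricCurrent
open Crest.GeometryTopology.Submanifold (Euc unitBallVol unitSphereArea)
open scoped ENNReal NNReal InnerProductSpace

noncomputable section

namespace Crest.Agent.R241.Lim

universe u

theorem fv_real {P : ℝ → ℝ} {Λ A I J C t₀ : ℝ} (hΛ : 0 < Λ) (hP : HasDerivAt P Λ⁻¹ A) (ht₀ : 0 < t₀)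
    (h : ∀ t ∈ Ioo 0 t₀, P A ≤ P (A - t * I + C * t ^ 2) + t * J + 2 * t ^ 2) : I ≤ Λ * J := by
  have h1 : HasDerivAt (fun t : ℝ => A - t * I + C * t ^ 2) (-I) 0 := by
    have := (((hasDerivAt_id (0 : ℝ)).mul_const I).const_sub A).add (((hasDerivAt_id (0 : ℝ)).pow 2).const_mul C)
    exact this.congr_deriv (by simp)
  have hP' : HasDerivAt P Λ⁻¹ ((fun t : ℝ => A - t * I + C * t ^ 2) 0) := by simpa using hP
  have h2 : HasDerivAt (fun t : ℝ => P (A - t * I + C * t ^ 2) + t * J + 2 * t ^ 2) (Λ⁻¹ * (-I) + J) 0 := by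
    have := ((hP'.comp 0 h1).add ((hasDerivAt_id (0 : ℝ)).mul_const J)).add
      (((hasDerivAt_id (0 : ℝ)).pow 2).const_mul 2)
    exact this.congr_deriv (by simp)
  have h3 : 0 ≤ Λ⁻¹ * (-I) + J := by
    refine ge_of_tendsto h2.tendsto_slope_zero_right ?_
    filter_upwards [Ioo_mem_nhdsGT ht₀] with t ht
    have := h t ht
    simp only [zero_add, zero_mul, sub_zero, ne_eq, OfNat.ofNat_ne_zero, not_false_eq_true, zero_pow,
      mul_zero, add_zero, smul_eq_mul]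
    exact mul_nonneg (inv_nonneg.2 ht.1.le) (by linarith)
  have h4 := mul_nonneg hΛ.le h3
  rw [mul_add, ← mul_assoc, mul_inv_cancel₀ hΛ.ne'] at h4
  linarith

variable {X : Type u} [MetricSpace X] [CompactSpace X] {σ : ℝ} {n : ℕ}

theorem fv_seq (hσ : 0 ≤ σ) (H : Hyp σ X) {P : ℝ → ℝ} {Λ A : ℝ} {c : ℕ → Ch X n} (h : NearMin P Λ A c)
    (x : X) {f : X → ℝ} (hf : Lip f) (hf0 : ∀ y, 0 ≤ f y) {I J : ℝ}
    (hI : Tendsto (fun j => ∫ w, (n * (1 + σ * kap σ x ((c j).pt w)) * f ((c j).pt w)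
      + ⟪(c j).grad f w, (c j).grad (kap σ x) w⟫_ℝ) ∂(c j).par) atTop (𝓝 I))
    (hJ : Tendsto (fun j => ∫ w, f ((c j).pt w)
      * √(sn σ (dist x ((c j).pt w)) ^ 2 - ‖(c j).grad (kap σ x) w‖ ^ 2) ∂(c j).par) atTop (𝓝 J)) :
    I ≤ Λ * J := by
  obtain ⟨C, t₀, ht₀, hd⟩ := exists_deform hσ H x hf hf0 n
  refine fv_real (C := C * A + 1) h.Λ_pos h.deriv ht₀ fun t ht => ?_
  set Ij : ℕ → ℝ := fun j => ∫ w, (n * (1 + σ * kap σ x ((c j).pt w)) * f ((c j).pt w)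
      + ⟪(c j).grad f w, (c j).grad (kap σ x) w⟫_ℝ) ∂(c j).par with hIj
  set Jj : ℕ → ℝ := fun j => ∫ w, f ((c j).pt w)
      * √(sn σ (dist x ((c j).pt w)) ^ 2 - ‖(c j).grad (kap σ x) w‖ ^ 2) ∂(c j).par with hJj
  set a : ℕ → ℝ := fun j => (c j).area - t * Ij j + C * t ^ 2 * (c j).area + t ^ 2 with ha
  have ht2 : 0 < t ^ 2 := pow_pos ht.1 2
  have halim : Tendsto a atTop (𝓝 (A - t * I + (C * A + 1) * t ^ 2)) := by
    have := ((h.area.sub (hI.const_mul t)).add (h.area.const_mul (C * t ^ 2))).add_const (t ^ 2)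
    convert this using 2
    ring
  have ha0 : ∀ j, 0 ≤ a j := fun j => by
    obtain ⟨c', R, -, h1, -⟩ := hd t ht (c j) (h.cyc j) (t ^ 2) ht2
    exact c'.area_nonneg.trans h1
  have hev : ∀ᶠ j in atTop, P A ≤ P (a j) + t * Jj j + 2 * t ^ 2 := by
    filter_upwards [h.near _ ht2] with j hj
    obtain ⟨c', R, h0, h1, h2⟩ := hd t ht (c j) (h.cyc j) (t ^ 2) ht2
    have h3 := hj c' R h0
    have h4 : P c'.area ≤ P (a j) := h.mono c'.area_nonneg (ha0 j) h1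
    simp only [hJj]
    linarith
  have hl0 : 0 ≤ A - t * I + (C * A + 1) * t ^ 2 := ge_of_tendsto' halim ha0
  have hPl : Tendsto (fun j => P (a j)) atTop (𝓝 (P (A - t * I + (C * A + 1) * t ^ 2))) :=
    (h.cont _ hl0).tendsto.comp (tendsto_nhdsWithin_iff.2 ⟨halim, Eventually.of_forall ha0⟩)
  exact ge_of_tendsto ((hPl.add (hJ.const_mul t)).add_const _) hev

end Crest.Agent.R241.Lim
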