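import Crest.Agent.R241.Hom
import Crest.Agent.R241.Slice
import Crest.Agent.R241.Prof

/-!
# Block F (3a): the competitor (cut out a ball, fill the slice, cone) and the resulting lower bound for slices.
-/

open MeasureTheory Set Filter Topology
open Crest.GeometryTopology.MetricCurrent
open Crest.GeometryTopology.Submanifold (Euc unitBallVol unitSphereArea)
open scoped ENNReal NNReal InnerProductSpace

noncomputable section

namespace Crest.Agent.R241.Lim

universe u

variable {X : Type u} [MetricSpace X] [CompactSpace X] [MeasurableSpace X] [BorelSpace X] {σ : ℝ} {m : ℕ}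

/-- the part of the chain in the closed ball -/
abbrev cB {k : ℕ} (c : Ch X k) (x : X) (t : ℝ) : Ch X k :=
  c.restr {y | dist y x ≤ t} ((Lip.dist_left x).measurableSet_le t)

theorem exists_competitor (hσ : 0 ≤ σ) (H : Hyp σ X) (c : Ch X (m + 1)) (x : X) {t : ℝ} (ht : 0 ≤ t)
    {sl : Ch X m} (hsl : IsBd (cB c x t) sl) (hin : sl.In {y | dist y x = t}) {S : Ch X (m + 1)}
    (hS : IsBd S sl) {η : ℝ} (hη : 0 < η) :
    ∃ (c' : Ch X (m + 1)) (R : Ch X (m + 1 + 1)), Homol c c' R ∧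
      c'.area = c.area - (cB c x t).area + S.area ∧ R.area ≤ t * ((cB c x t).area + S.area) + η := by
  obtain ⟨Pr, hPr, hid⟩ := H.exists_retr hσ x ht
  let r : X → X := fun y => (Pr y : X)
  have hr : LipschitzWith 1 r := fun a b => hPr a b
  set S' := S.push r hr with hS'
  have hS'b : IsBd S' sl := by
    intro f π hfπ
    rw [hS.push r hr f π hfπ, Ch.act_push]
    refine sl.act_congr hin (fun y hy => ?_) fun a y hy => ?_
    · show f (r y) = f y
      rw [show r y = y from hid y (le_of_eq hy)]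
    · show π a (r y) = π a y
      rw [show r y = y from hid y (le_of_eq hy)]
  have hS'in : S'.In (Metric.closedBall x t) := S.push_in r hr S.in_univ fun y _ => (Pr y).2
  obtain ⟨Z, hZa, hZ, hZin⟩ := exists_add (cB c x t) S'.neg
  have hZc : Z.IsCyc := by
    intro π hπ
    have h1 : IsTestPair (π 0) (Fin.tail π) := isTestPair_iff.2 ⟨hπ 0, fun a => hπ _⟩
    have h2 := hsl _ _ h1
    have h3 := hS'b _ _ h1
    rw [Fin.cons_self_tail] at h2 h3
    rw [hZ _ _ (isTestPair_iff.2 ⟨Lip.const 1, hπ⟩), Ch.act_neg, h2, h3, add_neg_cancel]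
  obtain ⟨Cn, hCn⟩ := exists_cone (H.zero hσ) x (m + 1)
  obtain ⟨T, hT, -, hTa⟩ := hCn Z hZc η hη
  obtain ⟨c', hca, hc', -⟩ := exists_add
    (c.restr {y | dist y x ≤ t}ᶜ ((Lip.dist_left x).measurableSet_le t).compl) S'
  refine ⟨c', T, fun f π hfπ => ?_, ?_, hTa.trans ?_⟩
  · rw [hT f π hfπ, hZ f π hfπ, hc' f π hfπ, Ch.act_neg,
      ← c.act_restr_add_compl ((Lip.dist_left x).measurableSet_le t) hfπ]
    ring
  · rw [hca, ← c.area_restr_add_compl ((Lip.dist_left x).measurableSet_le t)]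
    simp only [hS', Ch.area_push]
    ring
  · have h1 : ∀ᵐ w ∂Z.par, ‖dist (Z.pt w) x‖ ≤ t := by
      filter_upwards [(hZin _ (c.restr_in _) hS'in.neg).ae] with w hw
      rw [Real.norm_of_nonneg dist_nonneg]
      exact hw
    have h2 : ∫ w, dist (Z.pt w) x ∂Z.par ≤ t * Z.area :=
      (le_abs_self _).trans (norm_integral_le_of_norm_le_const h1)
    have h3 : Z.area = (cB c x t).area + S.area := hZa
    rw [← h3]
    have h4 : (∫ w, dist (Z.pt w) x ∂Z.par) / ((m + 1 : ℕ) + 1) ≤ ∫ w, dist (Z.pt w) x ∂Z.par :=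
      div_le_self (integral_nonneg fun _ => dist_nonneg) (le_add_of_nonneg_left (Nat.cast_nonneg _))
    linarith

theorem slope_ineq (hσ : 0 ≤ σ) (H : Hyp σ X) {P : ℝ → ℝ} {Λ A : ℝ} {c : ℕ → Ch X (m + 1)}
    (h : NearMin P Λ A c) : ∃ l > 0, ∀ e > 0, ∀ᶠ j in atTop, ∀ (x : X) (t : ℝ), 0 ≤ t →
      ∀ (sl : Ch X m) (S : Ch X (m + 1)), IsBd (cB (c j) x t) sl → sl.In {y | dist y x = t} → IsBd S sl →
        l * ((cB (c j) x t).area - S.area) ≤ t * ((cB (c j) x t).area + S.area) + e := by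
  obtain ⟨l, hl, hsl⟩ := h.slope
  refine ⟨l, hl, fun e he => ?_⟩
  have he3 : 0 < e / 3 := by positivity
  have hlim : Tendsto (fun j => l * |(c j).area - A|) atTop (𝓝 0) := by
    have := ((h.area.sub_const A).abs).const_mul l
    simpa using this
  filter_upwards [h.near _ he3, hlim.eventually (gt_mem_nhds he3)] with j hj hj2 x t ht sl S h1 h2 h3
  obtain ⟨c', R, hH, ha, hR⟩ := exists_competitor hσ H (c j) x ht h1 h2 h3 he3
  have h4 := hj c' R hH
  have h5 : 0 ≤ t * ((cB (c j) x t).area + S.area) :=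
    mul_nonneg ht (add_nonneg (Ch.area_nonneg _) S.area_nonneg)
  have h6 : l * ((c j).area - A) ≤ l * |(c j).area - A| := mul_le_mul_of_nonneg_left (le_abs_self _) hl.le
  have e1 : l * ((cB (c j) x t).area - S.area) = l * (A - c'.area) + l * ((c j).area - A) := by
    rw [ha]; ring
  rcases le_total c'.area A with h7 | h7
  · have h8 := hsl c'.area ⟨c'.area_nonneg, h7⟩
    linarith
  · have : l * (A - c'.area) ≤ 0 := mul_nonpos_of_nonneg_of_nonpos hl.le (by linarith)
    linarith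

theorem slice_lower (hσ : 0 ≤ σ) (H : Hyp σ X) (hfill : m ≠ 0 → Fill σ X m) {P : ℝ → ℝ} {Λ A : ℝ}
    {c : ℕ → Ch X (m + 1)} (h : NearMin P Λ A c) : ∃ l > 0, ∀ θ ∈ Ioo (0 : ℝ) (1 / 3), ∀ μ₀ > 0,
      ∀ᶠ j in atTop, ∀ (x : X), ∀ t ∈ Icc 0 (θ * l), ∀ sl : Ch X m, IsBd (cB (c j) x t) sl →
        sl.In {y | dist y x = t} → μ₀ ≤ (cB (c j) x t).area → ∀ r ≥ (0 : ℝ),
          om (m + 1) * r ^ (m + 1) ≤ (1 - 3 * θ) * (cB (c j) x t).area →
            (m + 1) * om (m + 1) * r ^ m ≤ sl.area := by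
  obtain ⟨l, hl, hsl⟩ := slope_ineq hσ H h
  refine ⟨l, hl, fun θ hθ μ₀ hμ => ?_⟩
  have hθ0 := hθ.1
  have hθ1 := hθ.2
  filter_upwards [hsl (θ * l * μ₀ / 2) (by positivity)] with j hj x t ht sl h1 h2 h3 r hr h4
  set a := (cB (c j) x t).area with ha
  have ha0 : 0 < a := hμ.trans_le h3
  have hta : t * a ≤ θ * l * a := mul_le_mul_of_nonneg_right ht.2 ha0.le
  have hμa : θ * l * μ₀ ≤ θ * l * a := mul_le_mul_of_nonneg_left h3 (by positivity)
  have hla : 0 < l * a := by positivity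
  rcases eq_or_ne m 0 with rfl | hm
  · by_contra hc
    have h5 : sl.area < 2 := by
      simpa [om_one] using hc
    have h6 : IsBd (Ch.zero x (0 + 1)) sl := fun f π _ => by
      rw [Ch.act_zero, sl.act_eq_zero_of_area_lt h1.isCyc h5]
    have h7 := hj x t ht.1 sl _ h1 h2 h6
    rw [Ch.area_zero, sub_zero, add_zero, ← ha] at h7
    nlinarith
  · obtain ⟨S, hS, hSa⟩ := hfill hm sl h1.isCyc (θ * μ₀ / 4) (by positivity)
    have h5 := hj x t ht.1 sl S h1 h2 hS
    rw [← ha] at h5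
    have h6 : S.area ≤ Psi 0 m sl.area + θ * μ₀ / 4 :=
      hSa.trans (add_le_add_left (Psi_le_Psi_zero hσ hm sl.area_nonneg) _)
    set p := Psi 0 m sl.area with hp
    have hp0 : 0 ≤ p := Psi_nonneg le_rfl hm sl.area_nonneg
    have h7 : (l + t) * S.area ≤ (l + θ * l) * (p + θ * μ₀ / 4) :=
      mul_le_mul (by linarith [ht.2]) h6 S.area_nonneg (by positivity)
    have h8 : l * ((1 - 2 * θ) * a) ≤ l * ((1 + θ) * p) := by
      have : θ * l * μ₀ * θ ≤ θ * l * μ₀ * 1 := mul_le_mul_of_nonneg_left (by linarith) (by positivity)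
      nlinarith
    have h9 := le_of_mul_le_mul_left h8 hl
    have h10 : (1 - 3 * θ) * a ≤ p := by
      have : (1 + θ) * ((1 - 3 * θ) * a) ≤ (1 + θ) * p := by nlinarith [mul_pos (mul_pos hθ0 hθ0) ha0]
      exact le_of_mul_le_mul_left this (by linarith)
    have h11 : Psi 0 m (sph m * r ^ m) = om (m + 1) * r ^ (m + 1) := by
      have := Psi_model (n := m) (κ := 0) le_rfl hm hr
      rwa [neg_zero, modelArea_zero, modelVolume_zero] at this
    rw [← sph_eq]
    have hs0 : 0 ≤ sph m * r ^ m := mul_nonneg (sph_pos m).le (pow_nonneg hr m)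
    refine ((strictMonoOn_Psi le_rfl hm).le_iff_le hs0 sl.area_nonneg).1 ?_
    rw [h11]
    exact h4.trans h10

end Crest.Agent.R241.Lim
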